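import Vale.Agent.P106.U.H61.Mac
import Vale.Agent.P106.U.H875.Basic
import Vale.Agent.P127.U.H420.ShapeCost

/-!
# P106 / U / H868 : the entropy of the shape against the distance of the shape (helper868)

* `xb`, `xR` : exponents of a box (integers), `dsh_eq`.
* `shp_given`, `ent_given` : `H(shape | e, Z) ≤ θ E dsh + K(θ)`, `H(e | shape, Z) ≤ θ E dsh + K(θ)` for random `e`.
* `pAbs : PAbs`.
-/

set_option autoImplicit false

namespace Vale.Agent.P106.U.H868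

open Vale.Agent.P127 Vale.Agent.P127.Stk Vale.Agent.P127.U Vale.Agent.P106.W Vale.Agent.P106.K Vale.Agent.P106.U

/-! ### exponents -/

/-- exponent of `u2` -/
noncomputable def xb (B : Cbx) : ℤ := round (-(Real.log B.u2) / Real.log 2)

/-- exponent of `u1` -/
noncomputable def xR (B : Cbx) : ℤ := round (-(Real.log B.u1) / Real.log 2)

theorem log_half_pow (n : ℕ) : Real.log ((1 / 2 : ℝ) ^ n) = -(n * Real.log 2) := by
  rw [Real.log_pow, one_div, Real.log_inv]; ring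

theorem l2 : 0 < Real.log 2 := Real.log_pos (by norm_num)

theorem xb_of {B : Cbx} {b : ℕ} (h : B.u2 = (1 / 2 : ℝ) ^ b) : xb B = b := by
  unfold xb
  rw [h, log_half_pow, neg_neg, mul_div_cancel_right₀ _ l2.ne']
  exact_mod_cast round_natCast b

theorem xR_of {B : Cbx} {R : ℕ} (h : B.u1 = (1 / 2 : ℝ) ^ R) : xR B = R := by
  unfold xR
  rw [h, log_half_pow, neg_neg, mul_div_cancel_right₀ _ l2.ne']
  exact_mod_cast round_natCast R

/-- the distance of the shapes in terms of the exponents -/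
theorem dsh_eq {c : ℝ} {L a : ℕ} {B : Cbx} {l : Ry} {t : ℝ} (h : LbOk c L a B l t) (e : ℕ × ℕ) :
    dsh B e = Real.log 2 * (|(xb B : ℝ) - ((e.1 : ℤ) : ℝ)| + |(xR B : ℝ) - ((e.2 : ℤ) : ℝ)|) := by
  obtain ⟨b, R, h1, h2, _, _⟩ := h.sh
  unfold dsh
  rw [xb_of h1, xR_of h2, h1, h2, log_half_pow, log_half_pow]
  push_cast
  have e1 : -((b : ℝ) * Real.log 2) + (e.1 : ℝ) * Real.log 2 = Real.log 2 * ((e.1 : ℝ) - b) := by ring
  have e2 : -((R : ℝ) * Real.log 2) + (e.2 : ℝ) * Real.log 2 = Real.log 2 * ((e.2 : ℝ) - R) := by ring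
  rw [e1, e2, abs_mul, abs_mul, abs_of_pos l2, abs_sub_comm (b : ℝ), abs_sub_comm (R : ℝ)]
  ring

theorem dsh_nonneg (B : Cbx) (e : ℕ × ℕ) : 0 ≤ dsh B e := by unfold dsh; positivity

/-- the shape of a label is a function of its exponents -/
theorem shp_of {c c' : ℝ} {L L' a a' : ℕ} {B B' : Cbx} {l l' : Ry} {t t' : ℝ} (h : LbOk c L a B l t)
    (h' : LbOk c' L' a' B' l' t') (h1 : xb B = xb B') (h2 : xR B = xR B') : shp B = shp B' := by
  obtain ⟨b, R, g1, g2, _, _⟩ := h.sh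
  obtain ⟨b', R', g1', g2', _, _⟩ := h'.sh
  rw [xb_of g1, xb_of g1'] at h1
  rw [xR_of g2, xR_of g2'] at h2
  have e1 : b = b' := by exact_mod_cast h1
  have e2 : R = R' := by exact_mod_cast h2
  unfold shp
  rw [g1, g2, g1', g2', e1, e2]

/-- the exponents of a label are functions of its shape (for all boxes) -/
theorem xb_shp {B B' : Cbx} (h : shp B = shp B') : xb B = xb B' := by
  unfold shp at h
  have h2 := (Prod.mk.inj h).2
  unfold xb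
  rw [h2]

theorem xR_shp {B B' : Cbx} (h : shp B = shp B') : xR B = xR B' := by
  unfold shp at h
  have h2 := (Prod.mk.inj h).1
  unfold xR
  rw [h2]

/-! ### entropy -/

/-- the constant `K(θ)` -/
noncomputable def Kth (θ : ℝ) : ℝ :=
  2 * Real.log 4 + 4 * (θ * Real.log 2 / 2 - 1 - Real.log (θ * Real.log 2 / 2))

theorem two_log_le {θ x : ℝ} (hθ : 0 < θ) (hx : 0 ≤ x) :
    2 * Real.log (1 + x) ≤ θ * Real.log 2 * x + 2 * (θ * Real.log 2 / 2 - 1 - Real.log (θ * Real.log 2 / 2)) := by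
  have hc : 0 < θ * Real.log 2 / 2 := by have := l2; positivity
  have h1 : 0 < 1 + x := by linarith
  have h2 := Real.log_le_sub_one_of_pos (mul_pos hc h1)
  rw [Real.log_mul hc.ne' h1.ne'] at h2
  linarith

variable {Ω : Type} [Fintype Ω] {σ : Type*}

/-- entropy of a pair of integers against the distance to a known pair -/
theorem hc_dist (P : Law Ω) (u v u' v' : Ω → ℤ) (Z : Ω → σ) {θ : ℝ} (hθ : 0 < θ) :
    Stk.hc P (fun ω => (u ω, v ω)) (fun ω => ((u' ω, v' ω), Z ω)) ≤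
      θ * P.ex (fun ω => Real.log 2 * (|(u ω : ℝ) - u' ω| + |(v ω : ℝ) - v' ω|)) + Kth θ := by
  have h1 : Stk.hc P (fun ω => (u ω, v ω)) (fun ω => ((u' ω, v' ω), Z ω)) ≤
      Stk.hc P (fun ω => (u ω - u' ω, v ω - v' ω)) (fun ω => ((u' ω, v' ω), Z ω)) := by
    refine Stk.hc_mono_left P ?_
    intro ω ω' _ _ q
    simp only [Prod.mk.injEq] at q ⊢
    exact ⟨by omega, by omega⟩
  rw [Stk.hc_pair P (fun ω => u ω - u' ω) (fun ω => v ω - v' ω)] at h1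
  have h2 := ShapeCost.hc_int_le P (fun ω => u ω - u' ω) (fun ω => ((u' ω, v' ω), Z ω))
  have h3 := ShapeCost.hc_int_le P (fun ω => v ω - v' ω) (fun ω => (u ω - u' ω, ((u' ω, v' ω), Z ω)))
  have h4 := two_log_le (x := P.ex fun ω => |((u ω - u' ω : ℤ) : ℝ)|) hθ (P.ex_nonneg fun ω _ => abs_nonneg _)
  have h5 := two_log_le (x := P.ex fun ω => |((v ω - v' ω : ℤ) : ℝ)|) hθ (P.ex_nonneg fun ω _ => abs_nonneg _)
  have h6 : P.ex (fun ω => Real.log 2 * (|(u ω : ℝ) - u' ω| + |(v ω : ℝ) - v' ω|)) =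
      Real.log 2 * (P.ex (fun ω => |((u ω - u' ω : ℤ) : ℝ)|) + P.ex (fun ω => |((v ω - v' ω : ℤ) : ℝ)|)) := by
    rw [P.ex_const_mul, P.ex_add]
    push_cast
    rfl
  rw [h6]
  unfold Kth
  nlinarith

/-- entropy of the shape of a label given a random target -/
theorem shp_given {c : ℝ} {L a : ℕ} (P : Law Ω) (l : Ω → Ry) (t : Ω → ℝ) (W : Ω → Cbx)
    (hW : ∀ ω, 0 < P.w ω → LbOk c L a (W ω) (l ω) (t ω)) (e : Ω → ℕ × ℕ) (Z : Ω → σ) {θ : ℝ} (hθ : 0 < θ) :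
    Stk.hc P (fun ω => shp (W ω)) (fun ω => (e ω, Z ω)) ≤ θ * P.ex (fun ω => dsh (W ω) (e ω)) + Kth θ := by
  have h1 := hc_dist P (fun ω => xb (W ω)) (fun ω => xR (W ω)) (fun ω => ((e ω).1 : ℤ)) (fun ω => ((e ω).2 : ℤ)) Z hθ
  have h2 : P.ex (fun ω => Real.log 2 * (|(xb (W ω) : ℝ) - (((e ω).1 : ℤ) : ℝ)| +
      |(xR (W ω) : ℝ) - (((e ω).2 : ℤ) : ℝ)|)) = P.ex (fun ω => dsh (W ω) (e ω)) :=
    le_antisymm (P.ex_mono fun ω hω => (dsh_eq (hW ω hω) (e ω)).ge) (P.ex_mono fun ω hω => (dsh_eq (hW ω hω) (e ω)).le)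
  rw [h2] at h1
  refine le_trans ?_ h1
  refine (Stk.hc_mono_left P (X' := fun ω => (xb (W ω), xR (W ω))) ?_).trans (Stk.hc_mono_right P _ ?_)
  · intro ω ω' hω hω' q
    simp only [Prod.mk.injEq] at q
    exact shp_of (hW ω hω) (hW ω' hω') q.1.1 q.1.2
  · intro ω ω' _ _ q
    simp only [Prod.mk.injEq] at q ⊢
    rw [q.1]
    exact ⟨⟨rfl, rfl⟩, q.2⟩

/-- entropy of the target given the shape of a label -/
theorem ent_given {c : ℝ} {L a : ℕ} (P : Law Ω) (l : Ω → Ry) (t : Ω → ℝ) (W : Ω → Cbx)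
    (hW : ∀ ω, 0 < P.w ω → LbOk c L a (W ω) (l ω) (t ω)) (e : Ω → ℕ × ℕ) (Z : Ω → σ) {θ : ℝ} (hθ : 0 < θ) :
    Stk.hc P e (fun ω => (shp (W ω), Z ω)) ≤ θ * P.ex (fun ω => dsh (W ω) (e ω)) + Kth θ := by
  have h1 := hc_dist P (fun ω => ((e ω).1 : ℤ)) (fun ω => ((e ω).2 : ℤ)) (fun ω => xb (W ω)) (fun ω => xR (W ω)) Z hθ
  have h2 : P.ex (fun ω => Real.log 2 * (|(((e ω).1 : ℤ) : ℝ) - (xb (W ω) : ℝ)| +
      |(((e ω).2 : ℤ) : ℝ) - (xR (W ω) : ℝ)|)) = P.ex (fun ω => dsh (W ω) (e ω)) := by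
    refine le_antisymm (P.ex_mono fun ω hω => ?_) (P.ex_mono fun ω hω => ?_)
    · rw [dsh_eq (hW ω hω) (e ω), abs_sub_comm, abs_sub_comm (((e ω).2 : ℤ) : ℝ)]
    · rw [dsh_eq (hW ω hω) (e ω), abs_sub_comm, abs_sub_comm (((e ω).2 : ℤ) : ℝ)]
  rw [h2] at h1
  refine le_trans ?_ h1
  refine (Stk.hc_mono_left P (X' := fun ω => (((e ω).1 : ℤ), ((e ω).2 : ℤ))) ?_).trans (Stk.hc_mono_right P _ ?_)
  · intro ω ω' _ _ q
    simp only [Prod.mk.injEq, Nat.cast_inj] at q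
    exact Prod.ext q.1.1 q.1.2
  · intro ω ω' _ _ q
    simp only [Prod.mk.injEq] at q ⊢
    exact ⟨⟨xb_shp q.1, xR_shp q.1⟩, q.2⟩

/-- the same, two laws of total entropy: `H(shape | Z) ≤ H(e | Z) + θ E dsh + K(θ)` -/
theorem shp_le {c : ℝ} {L a : ℕ} (P : Law Ω) (l : Ω → Ry) (t : Ω → ℝ) (W : Ω → Cbx)
    (hW : ∀ ω, 0 < P.w ω → LbOk c L a (W ω) (l ω) (t ω)) (e : Ω → ℕ × ℕ) (Z : Ω → σ) {θ : ℝ} (hθ : 0 < θ) :
    Stk.hc P (fun ω => shp (W ω)) Z ≤ Stk.hc P e Z + θ * P.ex (fun ω => dsh (W ω) (e ω)) + Kth θ := by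
  have h1 := Stk.hc_le_add P (fun ω => shp (W ω)) e Z
  have h2 := shp_given P l t W hW e Z hθ
  linarith

/-- `H(e | Z) ≤ H(shape | Z) + θ E dsh + K(θ)` -/
theorem ent_le {c : ℝ} {L a : ℕ} (P : Law Ω) (l : Ω → Ry) (t : Ω → ℝ) (W : Ω → Cbx)
    (hW : ∀ ω, 0 < P.w ω → LbOk c L a (W ω) (l ω) (t ω)) (e : Ω → ℕ × ℕ) (Z : Ω → σ) {θ : ℝ} (hθ : 0 < θ) :
    Stk.hc P e Z ≤ Stk.hc P (fun ω => shp (W ω)) Z + θ * P.ex (fun ω => dsh (W ω) (e ω)) + Kth θ := by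
  have h1 := Stk.hc_le_add P e (fun ω => shp (W ω)) Z
  have h2 := ent_given P l t W hW e Z hθ
  linarith

/-! ### the reward is absorbed -/

theorem ex_dsh_nonneg (P : Law Ω) (W : Ω → Cbx) (e : Ω → ℕ × ℕ) : 0 ≤ P.ex (fun ω => dsh (W ω) (e ω)) :=
  P.ex_nonneg fun _ _ => dsh_nonneg _ _

/-- the values without reward are bounded -/
theorem xSet_bdd0 {γ : Type} {c lam k : ℝ} (h0 : 0 ≤ lam) (h1 : lam ≤ 1) (hk : 0 ≤ k) (P : Law Ω) (l : Ω → Ry)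
    (t : Ω → ℝ) (C : Ω → γ) (e : Ω → ℕ × ℕ) (L a : ℕ) : BddAbove (xSet c lam k 0 P l t C e L a) := by
  refine ⟨P.H l + 3 * a * Real.log 2 + 4 * ((L : ℝ) - a) * Real.log 2, ?_⟩
  rintro v ⟨Ω', _, P', π, W, g1, g2, rfl⟩
  have h3 := val_le_H (C := fun ω => C (π ω)) h0 h1 g2
  have h4 : P'.H (fun ω => l (π ω)) = P.H l := Stk.H_law_aux P' P π g1 l
  rw [h4] at h3
  have h5 := mul_nonneg hk (ex_dsh_nonneg P' W (fun ω => e (π ω)))
  unfold valX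
  linarith

theorem xSet_ne {γ : Type} {c lam k La : ℝ} (hc : 0 ≤ c) (P : Law Ω) (l : Ω → Ry) (t : Ω → ℝ) (C : Ω → γ)
    (e : Ω → ℕ × ℕ) {L a : ℕ} (ha : a ≤ L) : (xSet c lam k La P l t C e L a).Nonempty :=
  ⟨_, Ω, inferInstance, P, id,
    fun ω => ⟨0, 1, 1, 0, 0, (bl a (l ω) (t ω)).y, (bl a (l ω) (t ω)).s, (bl a (l ω) (t ω)).z⟩,
    Stk.pr_id P, fun ω _ => self_LbOk hc ha (l ω) (t ω), rfl⟩

theorem pAbs : PAbs := by
  intro c lam k La hc h0 h1 hk hLa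
  set θ : ℝ := k / (2 * (La + 1)) with hθdef
  have hθ : 0 < θ := by positivity
  have hθ2 : La * θ ≤ k / 2 := by
    rw [hθdef, mul_div_assoc']
    rw [div_le_div_iff₀ (by positivity) (by norm_num)]
    nlinarith
  refine ⟨La * Kth θ, ?_⟩
  intro Ω _ γ P l t C e0 L a ha _
  refine csSup_le (xSet_ne (by linarith) P l t C _ ha) ?_
  rintro v ⟨Ω', _, P', π, W, g1, g2, rfl⟩
  have h2 := shp_le P' (fun ω => l (π ω)) (fun ω => t (π ω)) W g2 (fun _ => e0)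
    (fun ω => (l (π ω), fl1 a (t (π ω)), C (π ω))) hθ
  have h3 : Stk.hc P' (fun _ => e0) (fun ω => (l (π ω), fl1 a (t (π ω)), C (π ω))) = 0 :=
    Stk.hc_zero P' fun _ _ _ _ _ => rfl
  rw [h3, zero_add] at h2
  have h4 := mul_le_mul_of_nonneg_left h2 hLa
  have h5 := ex_dsh_nonneg P' W (fun _ => e0)
  have h6 : valX lam (k / 2) 0 P' (fun ω => l (π ω)) (fun ω => t (π ω)) (fun ω => C (π ω)) a (fun _ => e0) W ≤
      XX c lam (k / 2) 0 P l t C (fun _ => e0) L a :=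
    le_csSup (xSet_bdd0 h0 h1 (by positivity) P l t C _ L a) ⟨Ω', inferInstance, P', π, W, g1, g2, rfl⟩
  have h7 : La * θ * P'.ex (fun ω => dsh (W ω) e0) ≤ k / 2 * P'.ex (fun ω => dsh (W ω) e0) :=
    mul_le_mul_of_nonneg_right hθ2 h5
  unfold valX at h6 ⊢
  nlinarith

end Vale.Agent.P106.U.H868
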